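import Mathlib

/-!
# P226 (pool job 424, backup copy): a coisometry onto the hyperplane orthogonal to a vector
-/

namespace Vale.Agent.Lib.P226.H43HP

open MeasureTheory ProbabilityTheory

theorem exists_hyperplane_coisometry (d : ℕ) (q : EuclideanSpace ℝ (Fin (d + 1))) (hq : q ≠ 0) :
    ∃ L : EuclideanSpace ℝ (Fin (d + 1)) →L[ℝ] EuclideanSpace ℝ (Fin d),
      (stdGaussian (EuclideanSpace ℝ (Fin (d + 1)))).map L
        = stdGaussian (EuclideanSpace ℝ (Fin d)) ∧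
      (∀ y, ‖ContinuousLinearMap.adjoint L y‖ = ‖y‖) ∧
      (∀ x, ContinuousLinearMap.adjoint L (L x) = x - (inner ℝ x q / ‖q‖ ^ 2) • q) ∧
      (∀ z, ‖L z‖ ^ 2 = ‖z‖ ^ 2 - inner ℝ z q ^ 2 / ‖q‖ ^ 2) := by
  have hfact : Fact (Module.finrank ℝ (EuclideanSpace ℝ (Fin (d + 1))) = d + 1) :=
    ⟨finrank_euclideanSpace_fin⟩
  have hq0 : ‖q‖ ≠ 0 := norm_ne_zero_iff.mpr hq
  let b : OrthonormalBasis (Fin d) ℝ (ℝ ∙ q)ᗮ := OrthonormalBasis.fromOrthogonalSpanSingleton d hq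
  let L : EuclideanSpace ℝ (Fin (d + 1)) →L[ℝ] EuclideanSpace ℝ (Fin d) :=
    (b.repr.toContinuousLinearEquiv : (ℝ ∙ q)ᗮ →L[ℝ] EuclideanSpace ℝ (Fin d)).comp
      (ℝ ∙ q)ᗮ.orthogonalProjectionOnto
  let A : EuclideanSpace ℝ (Fin d) →L[ℝ] EuclideanSpace ℝ (Fin (d + 1)) :=
    (ℝ ∙ q)ᗮ.subtypeL.comp
      (b.repr.symm.toContinuousLinearEquiv : EuclideanSpace ℝ (Fin d) →L[ℝ] (ℝ ∙ q)ᗮ)
  have hLx : ∀ x, L x = b.repr ((ℝ ∙ q)ᗮ.orthogonalProjectionOnto x) := fun x => rfl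
  have hAy : ∀ y, A y = (b.repr.symm y : EuclideanSpace ℝ (Fin (d + 1))) := fun y => rfl
  have hadj : ContinuousLinearMap.adjoint L = A := by
    symm
    rw [ContinuousLinearMap.eq_adjoint_iff]
    intro y x
    rw [hLx, hAy, ← Submodule.inner_orthogonalProjectionOnto_eq_of_mem_left,
      ← b.repr.inner_map_map, LinearIsometryEquiv.apply_symm_apply]
  have hproj : ∀ x : EuclideanSpace ℝ (Fin (d + 1)),
      (((ℝ ∙ q)ᗮ.orthogonalProjectionOnto x : (ℝ ∙ q)ᗮ) : EuclideanSpace ℝ (Fin (d + 1)))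
        = x - (inner ℝ x q / ‖q‖ ^ 2) • q := by
    intro x
    rw [← Submodule.starProjection_apply, Submodule.starProjection_orthogonal_val,
      Submodule.starProjection_singleton, real_inner_comm]
    simp
  have h2 : ∀ y, ‖ContinuousLinearMap.adjoint L y‖ = ‖y‖ := by
    intro y
    rw [hadj, hAy, ← Submodule.coe_norm, LinearIsometryEquiv.norm_map]
  have h3 : ∀ x, ContinuousLinearMap.adjoint L (L x) = x - (inner ℝ x q / ‖q‖ ^ 2) • q := by
    intro x
    rw [hadj, hAy, hLx, LinearIsometryEquiv.symm_apply_apply, hproj]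
  have h4 : ∀ z, ‖L z‖ ^ 2 = ‖z‖ ^ 2 - inner ℝ z q ^ 2 / ‖q‖ ^ 2 := by
    intro z
    rw [hLx, LinearIsometryEquiv.norm_map, Submodule.coe_norm, hproj, norm_sub_sq_real,
      real_inner_smul_right, norm_smul, mul_pow, Real.norm_eq_abs, sq_abs]
    field_simp
    ring
  refine ⟨L, ?_, h2, h3, h4⟩
  apply Measure.ext_of_charFunDual
  ext M
  rw [charFunDual_map, charFunDual_stdGaussian, charFunDual_stdGaussian]
  have hnorm : ‖M.comp L‖ = ‖M‖ := by
    obtain ⟨m, rfl⟩ := (InnerProductSpace.toDual ℝ (EuclideanSpace ℝ (Fin d))).surjective M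
    have h5 : (InnerProductSpace.toDual ℝ (EuclideanSpace ℝ (Fin d)) m).comp L
        = InnerProductSpace.toDual ℝ (EuclideanSpace ℝ (Fin (d + 1)))
            (ContinuousLinearMap.adjoint L m) := by
      ext x
      rw [ContinuousLinearMap.comp_apply, InnerProductSpace.toDual_apply_apply,
        InnerProductSpace.toDual_apply_apply, ContinuousLinearMap.adjoint_inner_left]
    rw [h5, LinearIsometryEquiv.norm_map, LinearIsometryEquiv.norm_map, h2]
  rw [hnorm]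

end Vale.Agent.Lib.P226.H43HP
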