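import Mathlib

namespace Vale.Agent.Lib.P226.H43

open Finset

/-- Among `finrank + 2` vectors of a finite-dimensional real inner product space two have a
nonnegative inner product (at most `dim + 1` vectors have pairwise negative inner products). -/
theorem exists_nonneg_inner {V : Type*} [NormedAddCommGroup V] [InnerProductSpace ℝ V]
    [FiniteDimensional ℝ V] {m : ℕ} (z : Fin m → V) (hm : Module.finrank ℝ V + 2 ≤ m) :
    ∃ i j : Fin m, i ≠ j ∧ 0 ≤ inner ℝ (z i) (z j) := by
  by_contra hcon
  have hneg : ∀ i j : Fin m, i ≠ j → inner ℝ (z i) (z j) < 0 := by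
    intro i j hij
    by_contra h
    exact hcon ⟨i, j, hij, not_lt.mp h⟩
  obtain ⟨D, hD⟩ : ∃ D : ℕ, D = Module.finrank ℝ V := ⟨_, rfl⟩
  rw [← hD] at hm
  have hle : D + 1 ≤ m := by omega
  let w : Fin (D + 1) → V := fun i => z (Fin.castLE hle i)
  have hwneg : ∀ i j : Fin (D + 1), i ≠ j → inner ℝ (w i) (w j) < 0 := by
    intro i j hij
    apply hneg
    intro h
    apply hij
    have h2 : ((Fin.castLE hle i : Fin m) : ℕ) = ((Fin.castLE hle j : Fin m) : ℕ) :=
      congrArg Fin.val h
    exact Fin.ext h2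
  let L : Fin m := ⟨D + 1, by omega⟩
  have hwL : ∀ i : Fin (D + 1), inner ℝ (w i) (z L) < 0 := by
    intro i
    apply hneg
    intro h
    have h2 : ((Fin.castLE hle i : Fin m) : ℕ) = (L : ℕ) := congrArg Fin.val h
    have h3 : (i : ℕ) = D + 1 := h2
    have := i.isLt
    omega
  have hdep : ¬ LinearIndependent ℝ w := by
    intro hli
    have := hli.fintype_card_le_finrank
    rw [Fintype.card_fin, ← hD] at this
    omega
  obtain ⟨c, hc, i0, hi0⟩ := Fintype.not_linearIndependent_iff.mp hdep
  let a : Fin (D + 1) → ℝ := fun i => max (c i) 0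
  let b : Fin (D + 1) → ℝ := fun i => max (-c i) 0
  have ha0 : ∀ i, 0 ≤ a i := fun i => le_max_right _ _
  have hb0 : ∀ i, 0 ≤ b i := fun i => le_max_right _ _
  have hab : ∀ i, c i = a i - b i := by
    intro i
    show c i = max (c i) 0 - max (-c i) 0
    rcases le_total (c i) 0 with h | h
    · rw [max_eq_right h, max_eq_left (by linarith)]; ring
    · rw [max_eq_left h, max_eq_right (by linarith)]; ring
  have habz : ∀ i, a i * b i = 0 := by
    intro i
    show max (c i) 0 * max (-c i) 0 = 0
    rcases le_total (c i) 0 with h | h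
    · rw [max_eq_right h]; ring
    · rw [max_eq_right (by linarith : -c i ≤ 0)]; ring
  have hsum : ∑ i, a i • w i = ∑ i, b i • w i := by
    have h1 : ∑ i, (a i • w i - b i • w i) = 0 := by
      rw [← hc]
      apply Finset.sum_congr rfl
      intro i _
      rw [hab i, sub_smul]
    rw [Finset.sum_sub_distrib] at h1
    exact sub_eq_zero.mp h1
  have hcross : inner ℝ (∑ i, a i • w i) (∑ j, b j • w j) ≤ 0 := by
    rw [sum_inner]
    apply Finset.sum_nonpos
    intro i _
    rw [inner_sum]
    apply Finset.sum_nonpos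
    intro j _
    rw [real_inner_smul_left, real_inner_smul_right]
    by_cases hij : i = j
    · subst hij
      rw [← mul_assoc, habz i, zero_mul]
    · exact mul_nonpos_of_nonneg_of_nonpos (ha0 i)
        (mul_nonpos_of_nonneg_of_nonpos (hb0 j) (hwneg i j hij).le)
  have hu0 : ∑ i, a i • w i = 0 := by
    rw [← hsum] at hcross
    exact inner_self_eq_zero.mp (le_antisymm hcross real_inner_self_nonneg)
  have hv0 : ∑ i, b i • w i = 0 := by rw [← hsum]; exact hu0
  have hex : ∃ e : Fin (D + 1) → ℝ, (∀ i, 0 ≤ e i) ∧ (∃ i, 0 < e i) ∧ ∑ i, e i • w i = 0 := by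
    rcases lt_or_gt_of_ne hi0 with h | h
    · refine ⟨b, hb0, ⟨i0, ?_⟩, hv0⟩
      show 0 < max (-c i0) 0
      exact lt_max_of_lt_left (by linarith)
    · refine ⟨a, ha0, ⟨i0, ?_⟩, hu0⟩
      show 0 < max (c i0) 0
      exact lt_max_of_lt_left h
  obtain ⟨e, he0, ⟨i1, hi1⟩, hes⟩ := hex
  have hlt : inner ℝ (∑ i, e i • w i) (z L) < 0 := by
    rw [sum_inner]
    have h1 := Finset.sum_lt_sum (s := Finset.univ)
      (f := fun i => inner ℝ (e i • w i) (z L)) (g := fun _ => (0 : ℝ))
      (fun i _ => by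
        show inner ℝ (e i • w i) (z L) ≤ 0
        rw [real_inner_smul_left]
        exact mul_nonpos_of_nonneg_of_nonpos (he0 i) (hwL i).le)
      ⟨i1, Finset.mem_univ _, by
        show inner ℝ (e i1 • w i1) (z L) < 0
        rw [real_inner_smul_left]
        exact mul_neg_of_pos_of_neg hi1 (hwL i1)⟩
    simpa using h1
  rw [hes, inner_zero_left] at hlt
  exact lt_irrefl _ hlt

end Vale.Agent.Lib.P226.H43
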